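import Vale.Agent.P280.N2.Defs
import Vale.Agent.P280.N.B02

/-! P280, stage 2: the component with vector weights; two neighbouring spins are never both positive. -/

open DirectSum Vale.Agent.P280.T Vale.Agent.P280.H127 Vale.Agent.P280.N Vale.Agent.P280.N.H989

namespace Vale.Agent.P280.H509

variable {r : ℕ} {R : Type} [CommRing R] [IsDomain R] [Algebra ℂ R]
  {𝒜 : ℕ × (Fin r → ℤ) → Submodule ℂ R} [GradedAlgebra 𝒜]
  {N : ℤ} {f : Fin 4 → Fin r → ℤ} {β : Fin 4 → Fin 4 → ((Fin r → ℤ) →+ ℤ)}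
  {E F : Fin 4 → Fin 4 → VF R}

theorem two_one {α : Type*} {A B : Set α} (h : A.ncard = B.ncard) {a b1 b2 x y w : α}
    (hA : ∀ χ ∈ A, χ = a) (hB : ∀ χ ∈ B, χ = x ∨ χ = y ∨ χ = w) (h1 : b1 ∈ B) (h2 : b2 ∈ B)
    (hne : b1 ≠ b2) : False := by
  have hfin : B.Finite := (Set.toFinite {x, y, w}).subset fun χ hχ => by
    rcases hB χ hχ with h | h | h <;> simp [h]
  have e1 : A.ncard ≤ 1 := by
    calc A.ncard ≤ ({a} : Set α).ncard :=
          Set.ncard_le_ncard (fun χ hχ => hA χ hχ) (Set.toFinite _)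
      _ = 1 := Set.ncard_singleton _
  have e2 : 2 ≤ B.ncard := by
    calc 2 = ({b1, b2} : Set α).ncard := (Set.ncard_pair hne).symm
      _ ≤ B.ncard := Set.ncard_le_ncard (by
          intro χ hχ
          rcases hχ with rfl | hχ
          · exact h1
          · rw [Set.mem_singleton_iff.1 hχ]; exact h2) hfin
  omega

theorem three_two {α : Type*} {A B : Set α} (h : A.ncard = B.ncard) {a a' b1 b2 b3 x y w : α}
    (hA : ∀ χ ∈ A, χ = a ∨ χ = a') (hB : ∀ χ ∈ B, χ = x ∨ χ = y ∨ χ = w) (h1 : b1 ∈ B)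
    (h2 : b2 ∈ B) (h3 : b3 ∈ B) (h12 : b1 ≠ b2) (h13 : b1 ≠ b3) (h23 : b2 ≠ b3) : False := by
  have hfin : B.Finite := (Set.toFinite {x, y, w}).subset fun χ hχ => by
    rcases hB χ hχ with h | h | h <;> simp [h]
  have e1 : A.ncard ≤ 2 := by
    calc A.ncard ≤ ({a, a'} : Set α).ncard := Set.ncard_le_ncard (fun χ hχ => by
          rcases hA χ hχ with h | h <;> simp [h]) (Set.toFinite _)
      _ ≤ 2 := (Set.ncard_insert_le _ _).trans (by rw [Set.ncard_singleton])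
  have e2 : 3 ≤ B.ncard := by
    have e3 : ({b1, b2, b3} : Set α).ncard = 3 := by
      rw [Set.ncard_insert_of_notMem, Set.ncard_pair h23]
      simp [h12, h13]
    calc 3 = ({b1, b2, b3} : Set α).ncard := e3.symm
      _ ≤ B.ncard := Set.ncard_le_ncard (by
          intro χ hχ
          rcases hχ with rfl | rfl | hχ
          · exact h1
          · exact h2
          · rw [Set.mem_singleton_iff.1 hχ]; exact h3) hfin
  omega

/-- The functional which separates the classes modulo `f 3`. -/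
def sep (β : Fin 4 → Fin 4 → ((Fin r → ℤ) →+ ℤ)) : (Fin r → ℤ) →+ ℤ := β 0 2 + 3 • β 1 2

theorem sep_apply (μ : Fin r → ℤ) : sep β μ = β 0 2 μ + 3 * β 1 2 μ := by
  simp [sep, AddMonoidHom.add_apply]

theorem sep_f (hA : AC 𝒜 N 3 f β E F) (i : Fin 4) :
    sep β (f i) = (![1, 3, -4, 0] : Fin 4 → ℤ) i * N := by
  rw [sep_apply, hA.be 0 2 i (by decide), hA.be 1 2 i (by decide)]
  fin_cases i <;> simp <;> ring

/-- The weights of a class modulo `f 3`. -/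
theorem cls (hA : AC 𝒜 N 3 f β E F) {k : ℤ} (hk : k ≠ 0) {μ : Fin r → ℤ} (hμ : Wt 𝒜 μ)
    (h : sep β μ = k * N) :
    (∃ i j, i ≠ j ∧ μ = f i - f j ∧ (![1, 3, -4, 0] : Fin 4 → ℤ) i - (![1, 3, -4, 0] : Fin 4 → ℤ) j = k) ∨
    (∃ i, μ = f i ∧ (![1, 3, -4, 0] : Fin 4 → ℤ) i = k) ∨
    (∃ i, μ = -f i ∧ -(![1, 3, -4, 0] : Fin 4 → ℤ) i = k) ∨
    (∃ i j, i ≠ j ∧ μ = f i + f j ∧
      (![1, 3, -4, 0] : Fin 4 → ℤ) i + (![1, 3, -4, 0] : Fin 4 → ℤ) j = k) := by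
  have hN : N ≠ 0 := hA.N0.ne'
  have key : ∀ x : ℤ, x * N = k * N → x = k := fun x hx => mul_right_cancel₀ hN hx
  rcases hA.S μ hμ with h1 | ⟨i, j, hij, h1⟩ | ⟨i, h1 | h1⟩ | ⟨-, i, j, hij, h1⟩
  · exfalso
    rw [sep_apply, h1 0 2 (by decide), h1 1 2 (by decide)] at h
    apply hk
    have h2 : k * N = 0 := by rw [← h]; ring
    exact (mul_eq_zero.1 h2).resolve_right hN
  · refine Or.inl ⟨i, j, hij, h1, key _ ?_⟩
    rw [← h, h1, map_sub, sep_f hA, sep_f hA]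
    ring
  · refine Or.inr (Or.inl ⟨i, h1, key _ ?_⟩)
    rw [← h, h1, sep_f hA]
  · refine Or.inr (Or.inr (Or.inl ⟨i, h1, key _ ?_⟩))
    rw [← h, h1, map_neg, sep_f hA]
    ring
  · refine Or.inr (Or.inr (Or.inr ⟨i, j, hij, h1, key _ ?_⟩))
    rw [← h, h1, map_add, sep_f hA, sep_f hA]
    ring

/-- Opposite pairs of letters. -/
theorem four (hA : AC 𝒜 N 3 f β E F) : f 0 + f 1 + f 2 + f 3 = 0 := by
  have := hA.sum
  rwa [Fin.sum_univ_four] at this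


theorem cls1 (hA : AC 𝒜 N 3 f β E F) {μ : Fin r → ℤ} (hμ : Wt 𝒜 μ) (h : sep β μ = 1 * N) :
    μ = f 0 ∨ μ = f 0 - f 3 ∨ μ = -(f 1 + f 2) := by
  have h4 := four hA
  rcases cls hA one_ne_zero hμ h with ⟨i, j, hij, h1, h2⟩ | ⟨i, h1, h2⟩ | ⟨i, h1, h2⟩ |
    ⟨i, j, hij, h1, h2⟩
  · have key : ∀ i j : Fin 4, (![1, 3, -4, 0] : Fin 4 → ℤ) i - (![1, 3, -4, 0] : Fin 4 → ℤ) j = 1 →
      i = 0 ∧ j = 3 := by decide
    exact Or.inr (Or.inl (by rw [h1, (key i j h2).1, (key i j h2).2]))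
  · have key : ∀ i : Fin 4, (![1, 3, -4, 0] : Fin 4 → ℤ) i = 1 → i = 0 := by decide
    exact Or.inl (by rw [h1, key i h2])
  · have key : ∀ i : Fin 4, -(![1, 3, -4, 0] : Fin 4 → ℤ) i ≠ 1 := by decide
    exact absurd h2 (key i)
  · have key : ∀ i j : Fin 4, i ≠ j →
      (![1, 3, -4, 0] : Fin 4 → ℤ) i + (![1, 3, -4, 0] : Fin 4 → ℤ) j = 1 →
      (i = 0 ∧ j = 3) ∨ (i = 3 ∧ j = 0) := by decide
    refine Or.inr (Or.inr ?_)
    rcases key i j hij h2 with ⟨rfl, rfl⟩ | ⟨rfl, rfl⟩ <;>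
      rw [h1, eq_neg_iff_add_eq_zero, ← h4] <;> abel

theorem cls2 (hA : AC 𝒜 N 3 f β E F) {μ : Fin r → ℤ} (hμ : Wt 𝒜 μ) (h : sep β μ = (-1) * N) :
    μ = f 1 + f 2 ∨ μ = -f 0 ∨ μ = f 3 - f 0 := by
  have h4 := four hA
  rcases cls hA (by decide) hμ h with ⟨i, j, hij, h1, h2⟩ | ⟨i, h1, h2⟩ | ⟨i, h1, h2⟩ |
    ⟨i, j, hij, h1, h2⟩
  · have key : ∀ i j : Fin 4, (![1, 3, -4, 0] : Fin 4 → ℤ) i - (![1, 3, -4, 0] : Fin 4 → ℤ) j = -1 →
      i = 3 ∧ j = 0 := by decide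
    exact Or.inr (Or.inr (by rw [h1, (key i j h2).1, (key i j h2).2]))
  · have key : ∀ i : Fin 4, (![1, 3, -4, 0] : Fin 4 → ℤ) i ≠ -1 := by decide
    exact absurd h2 (key i)
  · have key : ∀ i : Fin 4, -(![1, 3, -4, 0] : Fin 4 → ℤ) i = -1 → i = 0 := by decide
    exact Or.inr (Or.inl (by rw [h1, key i h2]))
  · have key : ∀ i j : Fin 4, i ≠ j →
      (![1, 3, -4, 0] : Fin 4 → ℤ) i + (![1, 3, -4, 0] : Fin 4 → ℤ) j = -1 →
      (i = 1 ∧ j = 2) ∨ (i = 2 ∧ j = 1) := by decide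
    refine Or.inl ?_
    rcases key i j hij h2 with ⟨rfl, rfl⟩ | ⟨rfl, rfl⟩
    · exact h1
    · rw [h1, add_comm]

theorem cls3 (hA : AC 𝒜 N 3 f β E F) {μ : Fin r → ℤ} (hμ : Wt 𝒜 μ) (h : sep β μ = (-3) * N) :
    μ = f 0 + f 2 ∨ μ = -f 1 ∨ μ = f 3 - f 1 := by
  have h4 := four hA
  rcases cls hA (by decide) hμ h with ⟨i, j, hij, h1, h2⟩ | ⟨i, h1, h2⟩ | ⟨i, h1, h2⟩ |
    ⟨i, j, hij, h1, h2⟩
  · have key : ∀ i j : Fin 4, (![1, 3, -4, 0] : Fin 4 → ℤ) i - (![1, 3, -4, 0] : Fin 4 → ℤ) j = -3 →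
      i = 3 ∧ j = 1 := by decide
    exact Or.inr (Or.inr (by rw [h1, (key i j h2).1, (key i j h2).2]))
  · have key : ∀ i : Fin 4, (![1, 3, -4, 0] : Fin 4 → ℤ) i ≠ -3 := by decide
    exact absurd h2 (key i)
  · have key : ∀ i : Fin 4, -(![1, 3, -4, 0] : Fin 4 → ℤ) i = -3 → i = 1 := by decide
    exact Or.inr (Or.inl (by rw [h1, key i h2]))
  · have key : ∀ i j : Fin 4, i ≠ j →
      (![1, 3, -4, 0] : Fin 4 → ℤ) i + (![1, 3, -4, 0] : Fin 4 → ℤ) j = -3 →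
      (i = 0 ∧ j = 2) ∨ (i = 2 ∧ j = 0) := by decide
    refine Or.inl ?_
    rcases key i j hij h2 with ⟨rfl, rfl⟩ | ⟨rfl, rfl⟩
    · exact h1
    · rw [h1, add_comm]

theorem cls4 (hA : AC 𝒜 N 3 f β E F) {μ : Fin r → ℤ} (hμ : Wt 𝒜 μ) (h : sep β μ = 4 * N) :
    μ = f 0 + f 1 ∨ μ = -f 2 ∨ μ = f 3 - f 2 := by
  have h4 := four hA
  rcases cls hA (by decide) hμ h with ⟨i, j, hij, h1, h2⟩ | ⟨i, h1, h2⟩ | ⟨i, h1, h2⟩ |
    ⟨i, j, hij, h1, h2⟩
  · have key : ∀ i j : Fin 4, (![1, 3, -4, 0] : Fin 4 → ℤ) i - (![1, 3, -4, 0] : Fin 4 → ℤ) j = 4 →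
      i = 3 ∧ j = 2 := by decide
    exact Or.inr (Or.inr (by rw [h1, (key i j h2).1, (key i j h2).2]))
  · have key : ∀ i : Fin 4, (![1, 3, -4, 0] : Fin 4 → ℤ) i ≠ 4 := by decide
    exact absurd h2 (key i)
  · have key : ∀ i : Fin 4, -(![1, 3, -4, 0] : Fin 4 → ℤ) i = 4 → i = 2 := by decide
    exact Or.inr (Or.inl (by rw [h1, key i h2]))
  · have key : ∀ i j : Fin 4, i ≠ j →
      (![1, 3, -4, 0] : Fin 4 → ℤ) i + (![1, 3, -4, 0] : Fin 4 → ℤ) j = 4 →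
      (i = 0 ∧ j = 1) ∨ (i = 1 ∧ j = 0) := by decide
    refine Or.inl ?_
    rcases key i j hij h2 with ⟨rfl, rfl⟩ | ⟨rfl, rfl⟩
    · exact h1
    · rw [h1, add_comm]

theorem f_ne (hA : AC 𝒜 N 3 f β E F) : f 3 ≠ 0 := by
  intro h
  have h1 := hA.be 0 3 3 (by decide)
  rw [h, map_zero] at h1
  have := hA.N0
  simp at h1
  omega

/-- A string of a vertex weight. -/
theorem ns (H : Hyp 𝒜) (hA : AC 𝒜 N 3 f β E F) (q : FP 𝒜) {i j : Fin 4} (hij : i ≠ j)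
    (hna : ¬ q.Pi (f j - f i)) {χ : Fin r → ℤ} (hχ : q.Pi χ) (hβ : β i j χ < 0) :
    q.Pi (χ + (f i - f j)) :=
  H155.nef_string0 H hA.N0 (H155.toRoot0 (hA.root i j hij)) (hA.root i j hij).int q
    (by rwa [neg_sub]) hχ hβ

theorem ns_f (H : Hyp 𝒜) (hA : AC 𝒜 N 3 f β E F) {q : FP 𝒜} {i j : Fin 4} (hij : i ≠ j)
    (h : q.Pi (f j)) (hna : ¬ q.Pi (f j - f i)) : q.Pi (f i) := by
  have h1 := ns H hA q hij hna h (by
    rw [hA.be i j j hij, if_neg hij.symm, if_pos rfl]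
    have := hA.N0
    omega)
  rwa [add_sub_cancel] at h1

theorem ns_nf (H : Hyp 𝒜) (hA : AC 𝒜 N 3 f β E F) {q : FP 𝒜} {i j : Fin 4} (hij : i ≠ j)
    (h : q.Pi (-f i)) (hna : ¬ q.Pi (f j - f i)) : q.Pi (-f j) := by
  have h1 := ns H hA q hij hna h (by
    rw [map_neg, hA.be i j i hij, if_neg hij, if_pos rfl]
    have := hA.N0
    omega)
  have h2 : -f i + (f i - f j) = -f j := by abel
  rwa [h2] at h1

/-- The strings of the vector weights. -/
def NS (𝒜 : ℕ × (Fin r → ℤ) → Submodule ℂ R) (f : Fin 4 → Fin r → ℤ)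
    (β : Fin 4 → Fin 4 → ((Fin r → ℤ) →+ ℤ)) : Prop :=
  ∀ i j k l : Fin 4, i ≠ j → i ≠ k → i ≠ l → j ≠ k → j ≠ l → k ≠ l → ∀ (q : FP 𝒜) (χ : Fin r → ℤ),
    ¬ q.Pi (-(f i + f j)) → q.Pi χ → β i k χ + β j l χ < 0 → q.Pi (χ + (f i + f j))

theorem ve_nf (hA : AC 𝒜 N 3 f β E F) (hns : NS 𝒜 f β) {q : FP 𝒜} {i j k l : Fin 4}
    (hij : i ≠ j) (hik : i ≠ k) (hil : i ≠ l) (hjk : j ≠ k) (hjl : j ≠ l) (hkl : k ≠ l)
    (h : q.Pi (-f i)) (hna : ¬ q.Pi (-(f i + f j))) : q.Pi (f j) := by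
  have h1 := hns i j k l hij hik hil hjk hjl hkl q _ hna h (by
    rw [map_neg, map_neg, hA.be i k i hik, hA.be j l i hjl, if_pos rfl, if_neg hik, if_neg hij,
      if_neg hil]
    have := hA.N0
    omega)
  rwa [neg_add_cancel_left] at h1

theorem ve_f (hA : AC 𝒜 N 3 f β E F) (hns : NS 𝒜 f β) {q : FP 𝒜} {i j k l : Fin 4}
    (hij : i ≠ j) (hik : i ≠ k) (hil : i ≠ l) (hjk : j ≠ k) (hjl : j ≠ l) (hkl : k ≠ l)
    (h : q.Pi (f k)) (hna : ¬ q.Pi (-(f i + f j))) : q.Pi (-f l) := by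
  have h1 := hns i j k l hij hik hil hjk hjl hkl q _ hna h (by
    rw [hA.be i k k hik, hA.be j l k hjl, if_pos rfl, if_neg hik.symm, if_neg hjk.symm,
      if_neg hkl]
    have := hA.N0
    omega)
  have h4 : f k + (f i + f j) = -f l := by
    have h4 := four hA
    have key : ∀ i j k l : Fin 4, i ≠ j → i ≠ k → i ≠ l → j ≠ k → j ≠ l → k ≠ l →
      ∑ m, f m = f i + f j + f k + f l := by
      intro i j k l h1 h2 h3 h4 h5 h6
      have h7 : (Finset.univ : Finset (Fin 4)) = {i, j, k, l} := by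
        revert i j k l; decide
      rw [h7, Finset.sum_insert (by simp [h1, h2, h3]), Finset.sum_insert (by simp [h4, h5]),
        Finset.sum_insert (by simp [h6]), Finset.sum_singleton]
      abel
    have h8 := key i j k l hij hik hil hjk hjl hkl
    rw [hA.sum] at h8
    rw [eq_neg_iff_add_eq_zero, h8]
    abel
  rwa [h4] at h1

/-- Two neighbouring spins are not both positive. -/
theorem bx (H : Hyp 𝒜) (hA : AC 𝒜 N 3 f β E F) (hns : NS 𝒜 f β) (z : FP 𝒜)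
    (hr : ∀ i j : Fin 4, i < j → ¬ z.Pi (f j - f i))
    (he : ∀ i j : Fin 4, i < j → (j : ℕ) ≤ 2 → ¬ z.Pi (-(f i + f j)))
    (h3 : z.Pi (-f 3)) (h0 : z.Pi (f 0)) : False := by
  have hf3 := f_ne hA
  have hs3 := four hA
  have n0 : ¬ z.Pi (-f 0) := H170.not_pi_neg H h0
  -- the values of `sep`
  have e0 := sep_f hA 0
  have e1 := sep_f hA 1
  have e2 := sep_f hA 2
  have e3 := sep_f hA 3
  simp only [Matrix.cons_val] at e0 e1 e2 e3
  -- at `z`
  have a0 : z.Pi (f 0 - f 3) := by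
    by_contra hn
    exact n0 (ns_nf H hA (i := 3) (j := 0) (by decide) h3 hn)
  have n1 : ¬ z.Pi (-f 1) := by
    intro h
    have h2 := ve_nf hA hns (i := 1) (j := 2) (k := 0) (l := 3) (by decide) (by decide)
      (by decide) (by decide) (by decide) (by decide) h (he 1 2 (by decide) (by decide))
    exact H170.not_pi_neg H (ns_f H hA (i := 1) (j := 2) (by decide) h2 (hr 1 2 (by decide))) h
  -- the other end of the curve
  obtain ⟨z', n, φ, hφ⟩ := exists_curve H z h3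
  have h3' : z'.Pi (f 3) := by simpa using hφ.ya'
  have hcnt : ∀ k : ℤ, k ≠ 0 → {χ | z.Pi χ ∧ sep β χ = k * N}.ncard =
      {χ | z'.Pi χ ∧ sep β χ = k * N}.ncard := fun k hk =>
    curve_count H hφ (sep β) (by rw [map_neg, e3]; ring) _ (mul_ne_zero hk hA.N0.ne')
  have hup : ∀ k : Fin 4, k ≠ 3 → ¬ z'.Pi (f k) → z'.Pi (f 3 - f k) := by
    intro k hk hn
    by_contra h
    exact hn (ns_f H hA hk h3' h)
  have b0 : ¬ z'.Pi (-f 0) := by
    intro h
    have h1 : ¬ z'.Pi (f 0) := fun h1 => H170.not_pi_neg H h1 h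
    have h2 := hup 0 (by decide) h1
    refine two_one (hcnt (-1) (by decide)) (a := f 1 + f 2) ?_
      (fun χ hχ => cls2 hA ⟨z', hχ.1⟩ hχ.2) (b1 := -f 0) (b2 := f 3 - f 0)
      ⟨h, by rw [map_neg, e0]; ring⟩ ⟨h2, by rw [map_sub, e0, e3]; ring⟩ ?_
    · rintro χ ⟨hχ, hχl⟩
      rcases cls2 hA ⟨z, hχ⟩ hχl with rfl | rfl | rfl
      · rfl
      · exact absurd hχ n0
      · exact absurd hχ (hr 0 3 (by decide))
    · intro h5
      apply hf3
      have : f 3 = (f 3 - f 0) - -f 0 := by abel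
      rw [this, ← h5, sub_self]
  have b12 : z'.Pi (-(f 1 + f 2)) := by
    by_contra h
    exact b0 (ve_f hA hns (i := 1) (j := 2) (k := 3) (l := 0) (by decide) (by decide)
      (by decide) (by decide) (by decide) (by decide) h3' h)
  have c0 : z'.Pi (f 0) := by
    by_contra h
    have h2 := hup 0 (by decide) h
    have h2' : ¬ z'.Pi (f 0 - f 3) := fun h5 => H170.not_pi_neg H h5 (by rwa [neg_sub])
    refine two_one (hcnt 1 (by decide)).symm (a := -(f 1 + f 2)) ?_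
      (fun χ hχ => cls1 hA ⟨z, hχ.1⟩ hχ.2) (b1 := f 0) (b2 := f 0 - f 3)
      ⟨h0, by rw [e0]⟩ ⟨a0, by rw [map_sub, e0, e3]; ring⟩ ?_
    · rintro χ ⟨hχ, hχl⟩
      rcases cls1 hA ⟨z', hχ⟩ hχl with rfl | rfl | rfl
      · exact absurd hχ h
      · exact absurd hχ h2'
      · rfl
    · intro h5
      apply hf3
      have : f 3 = f 0 - (f 0 - f 3) := by abel
      rw [this, ← h5, sub_self]
  have b1 : ¬ z'.Pi (-f 1) := by
    intro h
    have h1 : ¬ z'.Pi (f 1) := fun h1 => H170.not_pi_neg H h1 h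
    have h2 := hup 1 (by decide) h1
    refine two_one (hcnt (-3) (by decide)) (a := f 0 + f 2) ?_
      (fun χ hχ => cls3 hA ⟨z', hχ.1⟩ hχ.2) (b1 := -f 1) (b2 := f 3 - f 1)
      ⟨h, by rw [map_neg, e1]; ring⟩ ⟨h2, by rw [map_sub, e1, e3]; ring⟩ ?_
    · rintro χ ⟨hχ, hχl⟩
      rcases cls3 hA ⟨z, hχ⟩ hχl with rfl | rfl | rfl
      · rfl
      · exact absurd hχ n1
      · exact absurd hχ (hr 1 3 (by decide))
    · intro h5
      apply hf3
      have : f 3 = (f 3 - f 1) - -f 1 := by abel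
      rw [this, ← h5, sub_self]
  have b02 : z'.Pi (-(f 0 + f 2)) := by
    by_contra h
    exact b1 (ve_f hA hns (i := 0) (j := 2) (k := 3) (l := 1) (by decide) (by decide)
      (by decide) (by decide) (by decide) (by decide) h3' h)
  have c2 : z'.Pi (-f 2) := by
    refine ve_f hA hns (i := 1) (j := 3) (k := 0) (l := 2) (by decide) (by decide)
      (by decide) (by decide) (by decide) (by decide) c0 ?_
    have h5 : -(f 1 + f 3) = - -(f 0 + f 2) := by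
      rw [neg_neg, neg_eq_iff_add_eq_zero, ← hs3]; abel
    rw [h5]
    exact H170.not_pi_neg H b02
  have c32 : z'.Pi (f 3 - f 2) :=
    hup 2 (by decide) fun h1 => H170.not_pi_neg H h1 c2
  have b01 : ¬ z'.Pi (f 0 + f 1) := by
    intro h
    refine three_two (hcnt 4 (by decide)) (a := f 0 + f 1) (a' := -f 2) ?_
      (fun χ hχ => cls4 hA ⟨z', hχ.1⟩ hχ.2) (b1 := f 0 + f 1) (b2 := -f 2) (b3 := f 3 - f 2)
      ⟨h, by rw [map_add, e0, e1]; ring⟩ ⟨c2, by rw [map_neg, e2]; ring⟩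
      ⟨c32, by rw [map_sub, e2, e3]; ring⟩ ?_ ?_ ?_
    · rintro χ ⟨hχ, hχl⟩
      rcases cls4 hA ⟨z, hχ⟩ hχl with rfl | rfl | rfl
      · exact Or.inl rfl
      · exact Or.inr rfl
      · exact absurd hχ (hr 2 3 (by decide))
    · intro h5
      apply hf3
      have : f 3 = (f 0 + f 1 + f 2 + f 3) - (f 0 + f 1) + -f 2 := by abel
      rw [this, hs3, h5]
      abel
    · intro h5
      have h6 : f 3 + f 3 = (f 0 + f 1 + f 2 + f 3) - (f 0 + f 1) + (f 3 - f 2) := by abel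
      rw [← h5, hs3, zero_sub, neg_add_cancel] at h6
      apply hf3
      have h7 := congrArg (β 0 3) h6
      rw [map_add, hA.be 0 3 3 (by decide), map_zero] at h7
      have := hA.N0
      simp at h7
      omega
    · intro h5
      apply hf3
      have : f 3 = (f 3 - f 2) - -f 2 := by abel
      rw [this, ← h5, sub_self]
  refine b1 (ve_f hA hns (i := 2) (j := 3) (k := 0) (l := 1) (by decide) (by decide)
      (by decide) (by decide) (by decide) (by decide) c0 ?_)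
  have h5 : -(f 2 + f 3) = f 0 + f 1 := by
    rw [neg_eq_iff_add_eq_zero, ← hs3]; abel
  rwa [h5]

/-- If the negative roots are absent then no `f i` is present. -/
theorem nof (H : Hyp 𝒜) (hA : AC 𝒜 N 3 f β E F) (hns : NS 𝒜 f β) (z : FP 𝒜)
    (hr : ∀ i j : Fin 4, i < j → ¬ z.Pi (f j - f i))
    (he : ∀ i j : Fin 4, i < j → (j : ℕ) ≤ 2 → ¬ z.Pi (-(f i + f j))) (i : Fin 4) :
    ¬ z.Pi (f i) := by
  have h0 : ¬ z.Pi (f 0) := by
    intro h
    refine bx H hA hns z hr he ?_ h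
    exact ve_f hA hns (i := 1) (j := 2) (k := 0) (l := 3) (by decide) (by decide)
      (by decide) (by decide) (by decide) (by decide) h (he 1 2 (by decide) (by decide))
  by_cases hi0 : i = 0
  · rw [hi0]; exact h0
  · exact fun h => h0 (ns_f H hA (i := 0) (j := i) (Ne.symm hi0) h
      (hr 0 i (Fin.pos_of_ne_zero hi0)))

/-- If the negative roots are absent then the only spin which can be present is `-f 3`. -/
theorem only (H : Hyp 𝒜) (hA : AC 𝒜 N 3 f β E F) (hns : NS 𝒜 f β) (z : FP 𝒜)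
    (hr : ∀ i j : Fin 4, i < j → ¬ z.Pi (f j - f i))
    (he : ∀ i j : Fin 4, i < j → (j : ℕ) ≤ 2 → ¬ z.Pi (-(f i + f j))) {i : Fin 4}
    (hi : z.Pi (-f i)) : i = 3 := by
  have key : ∀ i j : Fin 4, i ≠ j → (i : ℕ) ≤ 2 → (j : ℕ) ≤ 2 → ¬ z.Pi (-(f i + f j)) := by
    intro i j hij h1 h2
    rcases lt_or_gt_of_ne hij with h | h
    · exact he i j h h2
    · rw [add_comm]; exact he j i h h1
  by_contra h3
  fin_cases i
  · exact nof H hA hns z hr he 1 (ve_nf hA hns (i := 0) (j := 1) (k := 2) (l := 3) (by decide)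
      (by decide) (by decide) (by decide) (by decide) (by decide) hi
      (key 0 1 (by decide) (by decide) (by decide)))
  · exact nof H hA hns z hr he 0 (ve_nf hA hns (i := 1) (j := 0) (k := 2) (l := 3) (by decide)
      (by decide) (by decide) (by decide) (by decide) (by decide) hi
      (key 1 0 (by decide) (by decide) (by decide)))
  · exact nof H hA hns z hr he 0 (ve_nf hA hns (i := 2) (j := 0) (k := 1) (l := 3) (by decide)
      (by decide) (by decide) (by decide) (by decide) (by decide) hi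
      (key 2 0 (by decide) (by decide) (by decide)))
  · exact h3 rfl

end Vale.Agent.P280.H509
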